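import Crest.Agent.X212.Eps37.Job
import Crest.Agent.X212.Rf65.Pl

/-!
# Row 212, RF-EPS (helper37): the leaf `Rf65.Eps`
-/

set_option autoImplicit false
set_option linter.unusedSectionVars false
noncomputable section

namespace Crest.Agent.X212.Eps37
open An M

variable {Wi : Type} {X : Mf 4} {A κ lam : Type} [Fintype A] [Fintype κ] [Fintype lam]
  [DecidableEq lam] {M : Mark X A κ} {W : World M} {N : ML M lam}
  {Λ : Lns W N} {A' h : Type} [Fintype A'] [DecidableEq A'] [Fintype h] {r n : ℕ}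

/-- **LEAF EPS** -/
theorem eps (J : Job Wi Λ A' h r n) : Rf65.Eps J := fun hJ hb _ hε =>
  (eps0 hJ hb hε).mono fun _ k σ hσ c q y π a1 a2 a3 a4 a5 =>
    let ⟨b1, b2, b3⟩ := k σ hσ c q y π a1 a2 a3 a4 a5
    ⟨⟨b1, b2⟩, b3⟩

end Crest.Agent.X212.Eps37
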