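import Crest.Agent.X212.Eps37.Job

/-!
# Row 212 (helper37): relative smallness of both rows of the perturbation on a plain piece
-/

set_option autoImplicit false
set_option linter.unusedSectionVars false
noncomputable section
open scoped Manifold ContDiff Topology InnerProductSpace
open MeasureTheory Set Function Filter

namespace Crest.Agent.X212.Eps37

section gen
open An Wz78 Dgr80 Nd18
open Mp86 (TmSz SWSz LtSz)
open Fin37 (Tk)

variable {E : Type} [NormedAddCommGroup E] [NormedSpace ℝ E] [FiniteDimensional ℝ E]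
  [MeasurableSpace E] [BorelSpace E]
  {HM : Type} [TopologicalSpace HM] {I : ModelWithCorners ℝ E HM} [I.Boundaryless]
  {M : Type} [TopologicalSpace M] [ChartedSpace HM M] [IsManifold I ∞ M]
  [MeasurableSpace M] [T2Space M] [BorelSpace M] [SecondCountableTopology M] {ι : Type} [Fintype ι]
  {lam : Type} [Fintype lam] {r n N : ℕ} {B : Base M ι lam} {G : Geo I M ι lam}
  {c : Cfg M ι lam r} {O : Set M} {C : ℕ → ℝ} {D ε : ℝ}
  (hO : IsClopen O) (hT : G.F.Tame C) (hB : B.OK I) (h : c.Adm B G)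
include hO hT hB h

theorem ls_sw (hN : 1 ≤ N) (hD : Ls (G.F.μ.restrict O) c.Φ D) : ∀ {u : SW M},
    (∀ t ∈ u, LtSz G.F N t) → Ls (G.F.μ.restrict O) (c.sw G.F u) ((4 * N) ^ u.length * D)
  | [], _ => by simpa [Cfg.sw, Wrd81.wd] using hD
  | t :: u, hl => by
    have N1 : (1 : ℝ) ≤ N := by exact_mod_cast hN
    have ih : Ls (G.F.μ.restrict O) (c.sw G.F u) ((4 * N) ^ u.length * D) :=
      ls_sw hN hD fun t ht => hl t (List.mem_cons_of_mem _ ht)
    have ht := hl t List.mem_cons_self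
    have := mul_le_mul_of_nonneg_right N1 ih.nonneg
    have := ih.nonneg
    rw [List.length_cons, pow_succ', mul_assoc]
    cases t with
    | mul f =>
      refine (ih.mul (N.cast_nonneg (α := ℝ)) fun x => ?_).le (by linarith)
      refine ((congrArg (· ^ 2) (norm_smul (f x) _)).trans (mul_pow _ _ _)).trans_le ?_
      exact mul_le_mul_of_nonneg_right ((sq_abs _).trans_le (ht.le x)) (sq_nonneg _)
    | cl g =>
      exact (ih.mul (N.cast_nonneg (α := ℝ)) fun x => (Mp86.norm_cl (hB.pr x) (h.ok.cl x)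
        (fun a => h.ok.ρsk a x) (h.ok.psym x) (h.ok.pidem x) (fun a => G.F.D a g x) _).trans
          (mul_le_mul_of_nonneg_right (ht.le x) (sq_nonneg _))).le (by linarith)
    | im =>
      refine (ih.mul zero_le_one fun x => ?_).le (by linarith)
      have e := Mp86.norm_cs h.ok.Jsq h.ok.Jsk Complex.I (c.sw G.F u x)
      simp only [cs, Complex.I_re, Complex.I_im, zero_smul, one_smul, zero_add, Complex.norm_I,
        one_mul] at e
      exact ((congrArg (· ^ 2) e).trans (one_mul _).symm).le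
    | G => exact (ls_res hO hT (Mp86.mc_W h.conn) ih).le (by linarith)

omit hO hT in
theorem cont_tD {T : Tm M lam r n} (ok : T.OK G.F) : Continuous (c.tD B G.F T) := by
  have p := (Std94.sm_pm hB h.ok).continuous
  cases T with
  | lin u => exact p.clm_apply (Fin37.sm_sw h ok).continuous
  | anti d s u =>
    exact p.clm_apply ((Eqv71.csL c.m.J (c.co G.F d)).continuous.comp
      ((h.ok.sj.continuous.clm_apply ok.2.1.choose_spec.1.continuous).clm_apply
        (Fin37.sm_sw h ok.2.2).continuous))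
  | _ => exact continuous_const

omit hO hT hB h in
/-- the constant of a Dirac term of size `N` -/
def kD (N : ℕ) : ℝ := N * (4 * N) ^ N

theorem lb_tD (hN : 1 ≤ N) {T : Tm M lam r n} (ok : T.OK G.F) (sz : TmSz G N T)
    (hD : LB (G.F.μ.restrict O) (fun x => ‖c.Φ x‖ ^ 2) D) :
    LB (G.F.μ.restrict O) (fun x => ‖c.tD B G.F T x‖ ^ 2) (kD N * D) := by
  have N1 : (1 : ℝ) ≤ N := by exact_mod_cast hN
  have D0 := hD.nonneg fun _ => sq_nonneg _
  have k0 : 0 ≤ kD N * D := by unfold kD; positivity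
  have ct := (cont_tD hB h ok).aestronglyMeasurable (μ := G.F.μ.restrict O)
  have p : ∀ x v, ‖c.m.pm B x v‖ ^ 2 ≤ ‖v‖ ^ 2 := fun x v => pow_le_pow_left₀ (norm_nonneg _)
    (Mp86.proj_le (pm_sym hB h.ok x) (pm_pm hB h.ok x) v).2.2 2
  have s : ∀ {u : SW M}, SWSz G.F N u → Ls (G.F.μ.restrict O) (c.sw G.F u) ((4 * N) ^ N * D) :=
    fun hu => (ls_sw hO hT hB h hN ⟨_, hD, fun _ => le_rfl⟩ hu.2).le
      (mul_le_mul_of_nonneg_right (pow_le_pow_right₀ (by linarith) hu.1) D0)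
  cases T with
  | lin u =>
    exact (((s sz).mul (N.cast_nonneg (α := ℝ)) fun x => (p x _).trans
      (le_mul_of_one_le_left (sq_nonneg _) N1)).le (mul_assoc _ _ _).ge).lb ct
  | anti d σ u =>
    refine (((s sz.2).mul (N.cast_nonneg (α := ℝ)) fun x => (p x _).trans ?_).le
      (mul_assoc _ _ _).ge).lb ct
    refine (pow_le_pow_left₀ (norm_nonneg _) ((Mp86.norm_cs h.ok.Jsq h.ok.Jsk _ _).trans_le
      ((mul_le_of_le_one_left (norm_nonneg _) (Mp86.norm_co h.z G.F d)).trans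
        (Mp86.norm_j hB h.ok x _ _))) 2).trans ?_
    exact (mul_pow _ _ _).trans_le (mul_le_mul_of_nonneg_right (sz.1.le x) (sq_nonneg _))
  | _ => exact lb_zero hO.2.measurableSet (fun x _ => by simp [Cfg.tD]) k0

/-- **the Dirac field terms are small relative to the spinor** -/
theorem lb_fldD {W : Type} {T : W → Tm M lam r n} {t R b : W → ℝ} {k : W → ℕ} {q : W →₀ ℝ}
    (k1 : ∀ i, 1 ≤ k i) (hk : ∀ i, t i ≠ 0 → Tk B G (T i) (k i))
    (ht : ∀ i, |t i| ≤ R i) (hb : ∀ i, 0 < b i) (hq : (q.sum fun i a => |a| * b i) ≤ 1)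
    (hC : ∀ i, R i ^ 2 * kD (k i) ≤ (ε * b i) ^ 2)
    (hD : LB (G.F.μ.restrict O) (fun x => ‖c.Φ x‖ ^ 2) D) :
    LB (G.F.μ.restrict O)
      (fun x => ‖(fsum (fun i => (tmP B G.F (T i)).smul (t i)) q).D c x‖ ^ 2) (ε ^ 2 * D) := by
  have D0 := hD.nonneg fun _ => sq_nonneg _
  have k0 : ∀ i, 0 ≤ kD (k i) * D := fun i => by unfold kD; positivity
  refine Fin37.lb_cvx (u := fun i x => t i • c.tD B G.F (T i) x) _ hb (by positivity) hq
    (fun i => ?_) (fun i => ?_) (β := fun i => R i ^ 2 * (kD (k i) * D)) fun i => by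
      linarith [mul_le_mul_of_nonneg_right (hC i) D0]
  · rcases eq_or_ne (t i) 0 with e | e
    · simpa [e] using aestronglyMeasurable_const
    · exact ((cont_tD hB h (hk i e).ok).const_smul (t i)).aestronglyMeasurable
  · rcases eq_or_ne (t i) 0 with e | e
    · exact lb_zero hO.2.measurableSet (fun x _ => by simp [e]) (mul_nonneg (sq_nonneg _) (k0 i))
    · simp only [norm_smul, mul_pow, Real.norm_eq_abs, sq_abs]
      exact ((lb_tD hO hT hB h (k1 i) (hk i e).ok (hk i e).sz hD).mul (sq_nonneg _)).le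
        (mul_le_mul_of_nonneg_right (sq_le_sq' (neg_le_of_abs_le (ht i)) (le_of_abs_le (ht i))) (k0 i))

end gen

theorem lb_congr {X : Type*} [MeasurableSpace X] {μ : Measure X} {O : Set X} {f g : X → ℝ} {K : ℝ}
    (hO : MeasurableSet O) (e : EqOn f g O) (h : Dgr80.LB (μ.restrict O) g K) :
    Dgr80.LB (μ.restrict O) f K :=
  ⟨(integrableOn_congr_fun e hO).2 h.1, (setIntegral_congr_fun hO e).trans_le h.2⟩

open An An.Job M Nd18
open Fin37 (Pm fld)
open Dgr80 (LB)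

variable {Wi : Type} {X : Mf 4} {A κ lam : Type} [Fintype A] [Fintype κ] [Fintype lam]
  [DecidableEq lam] {M : Mark X A κ} {W : World M} {N : ML M lam}
  {Λ : Lns W N} {A' h : Type} [Fintype A'] [DecidableEq A'] [Fintype h] {r n : ℕ}
  {J : Job Wi Λ A' h r n} {c : M.Cl} {s : A' → ℝ} {π : Reg A} {z : (W.Z c).M}

theorem tau_pcD (hJ : J.OK) (hπ : M.sys.Piece c.1 π)
    (hn : ∀ a, a ∈ M.sys.inn π ∨ π a ≠ none → Ink3.Nil (J.xs a).N ∧ (J.xs a).ty = 0)
    (hz : z ∈ W.pc c π) (q : Wi →₀ ℝ) (x : Cfg (W.Z c).M (Option κ) (lam ⊕ lam) r) :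
    (J.τ c q s).D x z = (fld J c q s).D x z := by
  classical
  have a : (J.τ0 c s).D x z = 0 := Finset.sum_eq_zero fun i _ => dite_eq_right_iff.2 fun hi => by
    by_cases k : z ∈ (J.K c i.1 i.2 _ hi).ψ.target
    · beta_reduce; rw [((hn _ (meet hJ hπ hi k hz)).1.smul _).q1]; rfl
    · exact (Eqv71.van0_q1 _ _).D x z k
  have b : ∀ w, (J.τw c s w).D x z =
      ((tmP (J.B c) (J.G c s).F (Fin37.tm J c w)).smul (J.co w s)).D x z := fun w =>
    add_eq_left.2 (Finset.sum_eq_zero fun i _ => dite_eq_right_iff.2 fun hi => by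
      by_cases k : z ∈ (J.K c i.1 i.2 _ hi).ψ.target
      · beta_reduce
        rw [(hn _ (meet hJ hπ hi k hz)).2, Pi.zero_apply, smul_zero, Ink3.fsum_zero]; rfl
      · exact (Eqv71.van0_fsum (τ := fun T : YW _ _ => (J.xs i.1).N.q2 (J.K c i.1 i.2 _ hi) T.1)
          (fun _ => Eqv71.van0_q2 _ _ _) _).D x z k)
  refine (congrArg (· + _) a).trans ((zero_add _).trans ?_)
  simp only [fld, fsum, b]

/-- **EPS-W** -/
theorem epsW (hJ : J.OK) (hb : ∀ w, Wrd81.Bas (J.tw w)) {ε : ℝ} (hε : 0 < ε) :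
    An.Sml fun Adm => ∀ (c : M.Cl) q s π (x : Cfg (W.Z c).M (Option κ) (lam ⊕ lam) r) (D : ℝ),
      Adm q → Fin37.Pm J c s → M.sys.Piece c.1 π →
      (∀ a, a ∈ M.sys.inn π ∨ π a ≠ none → Ink3.Nil (J.xs a).N ∧ (J.xs a).ty = 0) →
      x.Adm (J.B c) (J.G c s) →
      (LB ((J.G c s).F.μ.restrict (W.pc c π)) (fun z => ‖x.Φ z‖ ^ 2) D →
        LB ((J.G c s).F.μ.restrict (W.pc c π)) (fun z => ‖(J.τ c q s).D x z‖ ^ 2) (ε ^ 2 * D)) ∧
      ((∀ z ∈ W.pc c π, x.Φ z = 0) →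
        LB ((J.G c s).F.μ.restrict (W.pc c π)) (fun z => ‖x.m.Fg (J.G c s).F x.W z‖ ^ 2) D →
        LB ((J.G c s).F.μ.restrict (W.pc c π)) (fun z => ‖(J.τ c q s).C x z‖ ^ 2) (ε ^ 2 * D)) := by
  choose k k1 hk using Tms63.tmsz hJ
  choose ρ hρ using fun w => Fin37.bd_cell J (hJ.co w).continuous
  choose b b1 _ _ _ _ b6 using fun w =>
    Fin37.exists_b hε 0 0 0 0 (max (ρ w ^ 2 * kD (k w)) (ρ w ^ 2 * kE (k w)))
  refine ⟨b, fun w => zero_le_one.trans (b1 w), fun Adm hA c q s π x D hq p hπ hn hx => ?_⟩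
  have hb' := (hA q hq).le
  rw [sub_zero] at hb'
  obtain ⟨-, C, hT⟩ := p.ok hJ
  have cl := Cyl58.isClopen_pc W.toCaps hπ
  have tk : ∀ i, J.co i s ≠ 0 → Fin37.Tk (J.B c) (J.G c s) (Fin37.tm J c i) (k i) := fun i e =>
    let ⟨_, h1, h2, h3⟩ := p
    ⟨(hJ.tw_in h1 ⟨J.cl_dom h2, h3⟩ e).choose_spec.ok _, (hk i c _ p e).1, (hk i c _ p e).2⟩
  exact ⟨fun hD => lb_congr cl.2.measurableSet
      (fun z hz => congrArg (‖·‖ ^ 2) (tau_pcD hJ hπ hn hz q x))
      (lb_fldD cl hT (Λ.B_ok _ _) hx k1 tk (fun i => hρ i c _ p) (fun i => one_pos.trans_le (b1 i))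
        hb' (fun i => (le_max_left _ _).trans (b6 i)) hD),
    fun h0 hD => lb_congr cl.2.measurableSet
      (fun z hz => congrArg (‖·‖ ^ 2) (tau_pc hJ hπ hn hz q x))
      (lb_fld ⟨cl, Mp86.bumps_of_tame _ hT, Mp86.mc_W hx.conn, Mp86.mc_adW hx.conn, h0⟩ hT
        (Λ.B_ok _ _) hx k1 tk (fun i => bas_tm (hb i)) (fun i => hρ i c _ p)
        (fun i => one_pos.trans_le (b1 i)) hb' (fun i => (le_max_right _ _).trans (b6 i)) hD)⟩

end Crest.Agent.X212.Eps37
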