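import Crest.Agent.X212.Fin37.Fld
import Crest.Agent.X212.Fin37.Gen
import Crest.Agent.X212.Cyl12.L2
import Crest.Agent.X212.Dead36.Gen
import Crest.Agent.X212.Wrd81.Exp

/-!
# Row 212, RF-EPS (helper37): field terms on a clopen set where the spinor vanishes
-/

set_option autoImplicit false
set_option linter.unusedSectionVars false
noncomputable section
open scoped Manifold ContDiff Topology InnerProductSpace
open MeasureTheory Set Function Filter

namespace Crest.Agent.X212.Eps37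
open An Wz78 Dgr80 Nd18
open Mp86 (TmSz LLSz LaSz G1 Mc)
open Dead36 (ZO)
open Wrd81 (wd Bas)
open Fin37 (Tk)

section meas
variable {X V : Type*} [MeasurableSpace X] {μ : Measure X} [NormedAddCommGroup V] {O : Set X}
  {u v : X → V} {g : X → ℝ} {D K : ℝ}

theorem lb_ind_iff (hO : MeasurableSet O) :
    LB μ (fun x => ‖O.indicator u x‖ ^ 2) D ↔ LB (μ.restrict O) (fun x => ‖u x‖ ^ 2) D := by
  have e : (fun x => ‖O.indicator u x‖ ^ 2) = O.indicator fun x => ‖u x‖ ^ 2 := funext fun x => by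
    by_cases hx : x ∈ O <;> simp [hx]
  rw [e, LB, LB, integrable_indicator_iff hO, integral_indicator hO, IntegrableOn]

theorem lb_zero (hO : MeasurableSet O) (h : ∀ x ∈ O, g x = 0) (hK : 0 ≤ K) :
    LB (μ.restrict O) g K :=
  ⟨(integrableOn_congr_fun h hO).2 integrableOn_zero,
    (setIntegral_eq_zero_of_forall_eq_zero h).trans_le hK⟩

variable (μ u D) in
/-- `‖u‖²` has an integrable majorant of integral `≤ D` -/
def Ls : Prop := ∃ g, LB μ g D ∧ ∀ x, ‖u x‖ ^ 2 ≤ g x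

theorem Ls.nonneg (h : Ls μ u D) : 0 ≤ D :=
  let ⟨_, h1, h2⟩ := h; h1.nonneg fun x => (sq_nonneg _).trans (h2 x)

theorem Ls.lb (h : Ls μ u D) (hm : AEStronglyMeasurable u μ) : LB μ (fun x => ‖u x‖ ^ 2) D :=
  let ⟨_, h1, h2⟩ := h; h1.mono (hm.norm.pow 2) (fun _ => sq_nonneg _) h2

theorem Ls.mul {W : Type*} [NormedAddCommGroup W] {v : X → W} (h : Ls μ u D) (hK : 0 ≤ K)
    (hv : ∀ x, ‖v x‖ ^ 2 ≤ K * ‖u x‖ ^ 2) : Ls μ v (K * D) :=
  let ⟨_, h1, h2⟩ := h
  ⟨_, h1.mul hK, fun x => (hv x).trans (mul_le_mul_of_nonneg_left (h2 x) hK)⟩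

theorem Ls.le (h : Ls μ u D) (hK : D ≤ K) : Ls μ u K :=
  let ⟨_, h1, h2⟩ := h; ⟨_, h1.le hK, h2⟩

end meas

variable {E : Type} [NormedAddCommGroup E] [NormedSpace ℝ E] [FiniteDimensional ℝ E]
  [MeasurableSpace E] [BorelSpace E]
  {HM : Type} [TopologicalSpace HM] {I : ModelWithCorners ℝ E HM} [I.Boundaryless]
  {M : Type} [TopologicalSpace M] [ChartedSpace HM M] [IsManifold I ∞ M]
  [MeasurableSpace M] [T2Space M] [BorelSpace M] [SecondCountableTopology M] {ι : Type} [Fintype ι]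
  {lam : Type} [Fintype lam] {r n N : ℕ} {B : Base M ι lam} {G : Geo I M ι lam}
  {c : Cfg M ι lam r} {O : Set M} {C : ℕ → ℝ} {D ε : ℝ}

/-- the resolvent on the `L²` space of a clopen set -/
theorem ls_res {V : Type} [NormedAddCommGroup V] [InnerProductSpace ℝ V] [CompleteSpace V]
    {F : Fr I M ι} {A : ι → M → V →L[ℝ] V} {s : M → V} (hO : IsClopen O) (hT : F.Tame C)
    (hA : Mc I A) (h : Ls (F.μ.restrict O) s D) : Ls (F.μ.restrict O) (F.res A s) (4 * D) := by
  have m := hO.2.measurableSet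
  rcases Mp86.res_cases F A s with k | k
  · exact ⟨_, (lb_ind_iff m).1 (Cyl12.l2_res hT hA (Eqv71.isRes_ind hO k) ((lb_ind_iff m).2
      (h.lb (Mp86.sm_isRes hA.sm k).continuous.aestronglyMeasurable))), fun _ => le_rfl⟩
  · exact ⟨fun _ => 0, lb_zero m (fun _ _ => rfl) (by linarith [h.nonneg]), fun x => by simp [k.2]⟩

variable (z : ZO G.F c O) (hT : G.F.Tame C) (hN : 1 ≤ N)
include z hT hN

theorem ls_wd {s : M → c.m.A} (h : Ls (G.F.μ.restrict O) s D) : ∀ {l : List (La M)},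
    (∀ t ∈ l, LaSz N t) → Ls (G.F.μ.restrict O) (wd (c.la G.F) s l) ((4 * N ^ 2) ^ l.length * D)
  | [], _ => by simpa [wd] using h
  | t :: l, hl => by
    have N1 : (1 : ℝ) ≤ N ^ 2 := one_le_pow₀ (by exact_mod_cast hN)
    have ih := ls_wd h fun t ht => hl t (List.mem_cons_of_mem _ ht)
    have ht := hl t List.mem_cons_self
    have := mul_le_mul_of_nonneg_right N1 ih.nonneg
    have := ih.nonneg
    rw [List.length_cons, pow_succ', mul_assoc]
    cases t with
    | mul f =>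
      refine (ih.mul (sq_nonneg (N : ℝ)) fun x => ?_).le (by linarith)
      refine ((congrArg (· ^ 2) (norm_smul (f x) _)).trans (mul_pow _ _ _)).trans_le ?_
      exact mul_le_mul_of_nonneg_right (pow_le_pow_left₀ (abs_nonneg _) (ht x) 2) (sq_nonneg _)
    | G => exact (ls_res z.cl hT z.ma ih).le (by linarith)

omit z hT hN in
/-- the constant of a term of size `N` -/
def kE (N : ℕ) : ℝ := N ^ 2 * ((4 * N ^ 2) ^ N * (4 * (4 * N ^ 3)))

/-- **one term** -/
theorem lb_tC (hB : B.OK I) (h : c.Adm B G) {T : Tm M lam r n} (ok : T.OK G.F) (sz : TmSz G N T)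
    (hb : Bas T) (hD : LB (G.F.μ.restrict O) (fun x => ‖c.m.Fg G.F c.W x‖ ^ 2) D) :
    LB (G.F.μ.restrict O) (fun x => ‖c.tC B G.F T x‖ ^ 2) (kE N * D) := by
  have N1 : (1 : ℝ) ≤ N := by exact_mod_cast hN
  have D0 := hD.nonneg fun _ => sq_nonneg _
  have k0 : 0 ≤ kE N * D := by unfold kE; positivity
  have m := z.cl.2.measurableSet
  have ct := (Fin37.cont_tC hB h ok).aestronglyMeasurable (μ := G.F.μ.restrict O)
  cases T with
  | adn => exact hb.elim
  | adj d s g g' u v l =>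
    refine lb_zero m (fun x hx => ?_) k0
    simp only [Cfg.tC, z.qj _ _ _ _ _ x hx, smul_zero, ← Pi.zero_def, WithLp.toLp_zero, map_zero,
      norm_zero, sq, mul_zero]
  | ad g g' ξ =>
    obtain ⟨s, l⟩ := ξ
    obtain ⟨a1, a2, a3, a4, a5⟩ := sz
    cases s with
    | q u v =>
      refine lb_zero m (fun x hx => ?_) k0
      have e : c.aw G.F ⟨.q u v, l⟩ x = 0 := z.q0 _ v l x hx
      simp only [Cfg.tC, e, smul_zero, ← Pi.zero_def, WithLp.toLp_zero, map_zero,
        norm_zero, sq, mul_zero]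
    | cv f k k' =>
      have s0 : Ls (G.F.μ.restrict O) (fun x => ∑ s : ι × ι,
          (f x * G.F.D s.1 k x * G.F.D s.2 k' x) • c.m.Fg G.F c.W x s) (N ^ 3 * D) :=
        Ls.mul ⟨_, hD, fun _ => le_rfl⟩ (by positivity) fun x => (Mp86.norm_sum_smul_sq _ _).trans
          (mul_le_mul_of_nonneg_right (by
            simp only [mul_assoc (f x), mul_pow (f x), ← Finset.mul_sum]
            rw [Mp86.sum_sq_prod (fun a => G.F.D a k x) fun a => G.F.D a k' x, pow_three]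
            exact mul_le_mul (a3.1 x) (mul_le_mul (a3.2.1 x) (a3.2.2 x) (by positivity)
              (by positivity)) (by positivity) (by positivity)) (sq_nonneg _))
      have s1 := ls_wd z hT hN (ls_res z.cl hT z.ma (ls_res z.cl hT z.ma s0)) a5
      refine ((s1.mul (sq_nonneg (N : ℝ)) fun x => (pow_le_pow_left₀ (norm_nonneg _)
        (Mp86.norm_p2_le hB c.m a1 a2 x _) 2).trans_eq (mul_pow _ _ _)).le ?_).lb ct
      have : (4 * N ^ 2 : ℝ) ^ l.length ≤ (4 * N ^ 2) ^ N :=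
        pow_le_pow_right₀ (by nlinarith) a4
      unfold kE
      rw [mul_assoc, mul_assoc, mul_assoc 4, mul_assoc 4]
      gcongr
  | _ => exact lb_zero m (fun x _ => by simp [Cfg.tC]) k0

omit z hT hN

variable {W : Type} {T : W → Tm M lam r n} {t R b : W → ℝ} {k : W → ℕ} {q : W →₀ ℝ}

theorem int_fld (hB : B.OK I) (h : c.Adm B G) (hk : ∀ i, t i ≠ 0 → Tk B G (T i) (k i)) :
    Integrable (fun x => ‖(fsum (fun i => (tmP B G.F (T i)).smul (t i)) q).C c x‖ ^ 2) G.F.μ := by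
  have e : ∀ i, MemLp (fun x => t i • c.tC B G.F (T i) x) 2 G.F.μ := fun i => by
    rcases eq_or_ne (t i) 0 with z | z
    · simp [z]
    · obtain ⟨L, h1, -, h3⟩ := (hk i z).sup
      exact ((Fin37.cont_tC hB h (hk i z).ok).memLp_of_hasCompactSupport
        (.intro h1 fun x hx => (h3 c x hx).2)).const_smul (t i)
  have m := memLp_finsetSum q.support fun i _ => (e i).const_smul (q i)
  exact (memLp_two_iff_integrable_sq_norm m.1).1 m

/-- **the field terms are small relative to the curvature** -/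
theorem lb_fld (z : ZO G.F c O) (hT : G.F.Tame C) (hB : B.OK I) (h : c.Adm B G)
    (k1 : ∀ i, 1 ≤ k i) (hk : ∀ i, t i ≠ 0 → Tk B G (T i) (k i)) (bs : ∀ i, Bas (T i))
    (ht : ∀ i, |t i| ≤ R i) (hb : ∀ i, 0 < b i) (hq : (q.sum fun i a => |a| * b i) ≤ 1)
    (hC : ∀ i, R i ^ 2 * kE (k i) ≤ (ε * b i) ^ 2)
    (hD : LB (G.F.μ.restrict O) (fun x => ‖c.m.Fg G.F c.W x‖ ^ 2) D) :
    LB (G.F.μ.restrict O)
      (fun x => ‖(fsum (fun i => (tmP B G.F (T i)).smul (t i)) q).C c x‖ ^ 2) (ε ^ 2 * D) := by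
  have D0 := hD.nonneg fun _ => sq_nonneg _
  have k0 : ∀ i, 0 ≤ kE (k i) * D := fun i => by unfold kE; positivity
  refine Fin37.lb_cvx (u := fun i x => t i • c.tC B G.F (T i) x) _ hb (by positivity) hq
    (fun i => ?_) (fun i => ?_) (β := fun i => R i ^ 2 * (kE (k i) * D)) fun i => by
      linarith [mul_le_mul_of_nonneg_right (hC i) D0]
  · rcases eq_or_ne (t i) 0 with e | e
    · simpa [e] using aestronglyMeasurable_const
    · exact ((Fin37.cont_tC hB h (hk i e).ok).const_smul (t i)).aestronglyMeasurable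
  · rcases eq_or_ne (t i) 0 with e | e
    · exact lb_zero z.cl.2.measurableSet (fun x _ => by simp [e]) (mul_nonneg (sq_nonneg _) (k0 i))
    · simp only [norm_smul, mul_pow, Real.norm_eq_abs, sq_abs]
      exact ((lb_tC z hT (k1 i) hB h (hk i e).ok (hk i e).sz (bs i) hD).mul (sq_nonneg _)).le
        (mul_le_mul_of_nonneg_right (sq_le_sq' (neg_le_of_abs_le (ht i)) (le_of_abs_le (ht i))) (k0 i))

/-- the energy identity on an open set -/
theorem ea_of (hB : B.OK I) (hG : G.OK B) (h : c.Adm B G) (hO : IsOpen O) {u : M → ℝ} {η : ℝ}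
    (hu : ∀ x ∈ O, ‖c.m.p2 B x (c.m.Fg G.F c.W x)‖ ^ 2 = u x) (iu : Integrable u G.F.μ)
    (ik : Integrable (c.m.kd B G.F c.W) G.F.μ) (h1 : η ≤ ε ^ 2) (h2 : η ≤ 1 / 4)
    (hD : ∀ D, LB (G.F.μ.restrict O) (fun x => ‖c.m.Fg G.F c.W x‖ ^ 2) D →
      LB (G.F.μ.restrict O) u (η * D)) :
    IntegrableOn (fun x => ‖c.m.Fg G.F c.W x‖ ^ 2) O G.F.μ ∧
      ∫ x in O, ‖c.m.p2 B x (c.m.Fg G.F c.W x)‖ ^ 2 ∂G.F.μ ≤
        ε ^ 2 * ∫ x in O, ‖c.m.Fg G.F c.W x‖ ^ 2 ∂G.F.μ ∧
      0 ≤ ∫ x in O, c.m.kd B G.F c.W x ∂G.F.μ ∧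
      (∫ x in O, c.m.kd B G.F c.W x ∂G.F.μ = 0 → ∀ x ∈ O, c.m.Fg G.F c.W x = 0) := by
  have m := hO.measurableSet
  have e : EqOn (fun x => ‖c.m.Fg G.F c.W x‖ ^ 2)
      (fun x => 2 * u x + 128 * Real.pi ^ 2 * c.m.kd B G.F c.W x) O := fun x hx => by
    beta_reduce
    rw [norm_Fg_sq hG h.conn hB, hu x hx]
  have i1 := (iu.const_mul 2).integrableOn (s := O)
  have i2 := (ik.const_mul (128 * Real.pi ^ 2)).integrableOn (s := O)
  have i3 := (integrableOn_congr_fun e m).2 (i1.add i2)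
  have a := (hD _ ⟨i3, le_rfl⟩).2
  have a0 : 0 ≤ ∫ x in O, ‖c.m.Fg G.F c.W x‖ ^ 2 ∂G.F.μ := integral_nonneg fun _ => sq_nonneg _
  have a1 := (setIntegral_congr_fun (μ := G.F.μ) m e).trans (integral_add i1 i2)
  rw [integral_const_mul, integral_const_mul] at a1
  have a2 := mul_le_mul_of_nonneg_right h2 a0
  refine ⟨i3, (setIntegral_congr_fun m hu).trans_le (a.trans (mul_le_mul_of_nonneg_right h1 a0)),
    nonneg_of_mul_nonneg_right (a := 128 * Real.pi ^ 2) (by linarith) (by positivity),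
    fun k x hx => ?_⟩
  have := Cht98.openPos G.F.toPre
  rw [k] at a1
  have f := ((Mp86.sm_Fg hB hG h.ok h.conn).continuous.norm.pow 2).continuousOn (s := O)
  simpa using Measure.eqOn_open_of_ae_eq ((integral_eq_zero_iff_of_nonneg (fun _ => sq_nonneg _)
    i3).1 (a0.antisymm' (by linarith))) hO f continuousOn_const hx

end Crest.Agent.X212.Eps37
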