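import Crest.Agent.X212.Eps37.Gen
import Crest.Agent.X212.Fin37.Bdj
import Crest.Agent.X212.Tms63.Main
import Crest.Agent.X212.Ink3.Main
import Crest.Agent.X212.An.Str
import Crest.Agent.X212.Cht98.Jb

/-!
# Row 212, RF-EPS (helper37): pieces without spinor and without neck terms
-/

set_option autoImplicit false
set_option linter.unusedSectionVars false
noncomputable section
open scoped Manifold ContDiff Topology InnerProductSpace
open MeasureTheory Set Function Filter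

namespace Crest.Agent.X212.Eps37
open An An.Job M Nd18
open Fin37 (Pm fld)
open Dgr80 (LB)

variable {Wi : Type} {X : Mf 4} {A κ lam : Type} [Fintype A] [Fintype κ] [Fintype lam]
  [DecidableEq lam] {M : Mark X A κ} {W : World M} {N : ML M lam}
  {Λ : Lns W N} {A' h : Type} [Fintype A'] [DecidableEq A'] [Fintype h] {r n : ℕ}
  {J : Job Wi Λ A' h r n} {c : M.Cl} {s : A' → ℝ} {π : Reg A} {z : (W.Z c).M}

/-- a neck which meets a piece belongs to an inner wall or to a boundary wall -/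
theorem meet (hJ : J.OK) (hπ : M.sys.Piece c.1 π) {a : A} {b : Option Bool} {p : Prm A}
    (ha : Act J.m c a b p) (h1 : z ∈ (J.K c a b p ha).ψ.target) (h2 : z ∈ W.pc c π) :
    a ∈ M.sys.inn π ∨ π a ≠ none := by
  have := M.con
  obtain ⟨y, hy, rfl⟩ := (J.K c a b p ha).ψ.toPartialEquiv.surjOn h1
  replace hy := (J.K c a b p ha).mem_src.1 hy
  cases b with
  | none =>
    have f := ha.2.2.2.2.1
    have e := Cht98.isNk_ψ ha (hJ.nk _ _ _ _ ha) hy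
    refine .inl (by_contra fun k => disjoint_left.1 (hπ.toIsReg.outer
      (by_contra fun e => f.1 (hπ.bd_subset e)) (fun a' e => f.2 a' (hπ.bd_subset e)) k).1
      ((Cyl58.φ_mem_pc W.toCaps hπ (Mark.fr_not_mem f ⟨_, rfl⟩)).1
        ((congrArg (· ∈ W.pc c π) e).mp h2)) ⟨_, rfl⟩)
  | some b =>
    obtain ⟨π', h3, h4⟩ := (Sys.existsUnique_adj c.2 ha.2.2.2 b).exists
    obtain rfl := Cyl58.pc_unique W.toCaps hπ h3 h2 ((hJ.nk _ _ _ _ ha).end_mem ha h3 h4 hy)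
    exact .inr (h4 ▸ nofun)

/-- on such a piece only the field terms are seen -/
theorem tau_pc (hJ : J.OK) (hπ : M.sys.Piece c.1 π)
    (hn : ∀ a, a ∈ M.sys.inn π ∨ π a ≠ none → Ink3.Nil (J.xs a).N ∧ (J.xs a).ty = 0)
    (hz : z ∈ W.pc c π) (q : Wi →₀ ℝ) (x : Cfg (W.Z c).M (Option κ) (lam ⊕ lam) r) :
    (J.τ c q s).C x z = (fld J c q s).C x z := by
  classical
  have a : (J.τ0 c s).C x z = 0 := Finset.sum_eq_zero fun i _ => dite_eq_right_iff.2 fun hi => by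
    by_cases k : z ∈ (J.K c i.1 i.2 _ hi).ψ.target
    · beta_reduce; rw [((hn _ (meet hJ hπ hi k hz)).1.smul _).q1]; rfl
    · exact (Eqv71.van0_q1 _ _).C x z k
  have b : ∀ w, (J.τw c s w).C x z =
      ((tmP (J.B c) (J.G c s).F (Fin37.tm J c w)).smul (J.co w s)).C x z := fun w =>
    add_eq_left.2 (Finset.sum_eq_zero fun i _ => dite_eq_right_iff.2 fun hi => by
      by_cases k : z ∈ (J.K c i.1 i.2 _ hi).ψ.target
      · beta_reduce
        rw [(hn _ (meet hJ hπ hi k hz)).2, Pi.zero_apply, smul_zero, Ink3.fsum_zero]; rfl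
      · exact (Eqv71.van0_fsum (τ := fun T : YW _ _ => (J.xs i.1).N.q2 (J.K c i.1 i.2 _ hi) T.1)
          (fun _ => Eqv71.van0_q2 _ _ _) _).C x z k)
  refine (congrArg (· + _) a).trans ((zero_add _).trans ?_)
  simp only [fld, fsum, b]

theorem bas_tm {T : Tm X.M (lam ⊕ lam) r n} (h : Wrd81.Bas T) : Wrd81.Bas ((J.tp c).tm T) := by
  cases T with
  | ad g g' ξ =>
    obtain ⟨f, l, e⟩ := h
    exact ⟨_, _, congrArg (List.map (J.tp c).la) e⟩
  | adn => exact h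
  | _ => trivial

/-- **EPS** -/
theorem eps0 (hJ : J.OK) (hb : ∀ w, Wrd81.Bas (J.tw w)) {ε : ℝ} (hε : 0 < ε) :
    An.Sml fun Adm => ∀ σ ∈ J.𝒦, ∀ (c : M.Cl) q (y : J.Obc c) π, Adm q → Sol σ q y →
      M.sys.Piece c.1 π → ¬y.TF π →
      (∀ a, a ∈ M.sys.inn π ∨ π a ≠ none → Ink3.Nil (J.xs a).N ∧ (J.xs a).ty = 0) →
      IntegrableOn (fun z => ‖y.x.m.Fg (J.G c y.s).F y.x.W z‖ ^ 2) (W.pc c π) (J.G c y.s).F.μ ∧
      ∫ z in W.pc c π, ‖y.x.m.p2 (J.B c) z (y.x.m.Fg (J.G c y.s).F y.x.W z)‖ ^ 2 ∂(J.G c y.s).F.μ ≤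
        ε ^ 2 * ∫ z in W.pc c π, ‖y.x.m.Fg (J.G c y.s).F y.x.W z‖ ^ 2 ∂(J.G c y.s).F.μ ∧
      0 ≤ y.kap (W.pc c π) ∧
      (y.kap (W.pc c π) = 0 → ∀ z ∈ W.pc c π, y.x.m.Fg (J.G c y.s).F y.x.W z = 0) := by
  have e0 : 0 < min ε (1 / 2) := lt_min hε (by norm_num)
  choose k k1 hk using Tms63.tmsz hJ
  choose ρ hρ using fun w => Fin37.bd_cell J (hJ.co w).continuous
  choose b b1 _ _ _ _ b6 using fun w => Fin37.exists_b e0 0 0 0 0 (ρ w ^ 2 * kE (k w))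
  refine ⟨b, fun w => zero_le_one.trans (b1 w), fun Adm hA σ hσ c q y π hq H hπ h0 hn => ?_⟩
  have hb' := (hA q hq).le
  rw [sub_zero] at hb'
  have p : Pm J c y.s := ⟨σ, hσ, H.cell, H.inf⟩
  obtain ⟨hG, C, hT⟩ := p.ok hJ
  have z : Dead36.ZO (J.G c y.s).F y.x (W.pc c π) := ⟨Cyl58.isClopen_pc W.toCaps hπ,
    Mp86.bumps_of_tame _ hT, Mp86.mc_W H.sol.conn, Mp86.mc_adW H.sol.conn,
    fun _ hx => Obc.zero h0 hx⟩
  have tk : ∀ i, J.co i y.s ≠ 0 → Fin37.Tk (J.B c) (J.G c y.s) (Fin37.tm J c i) (k i) := fun i e =>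
    ⟨(hJ.tw_in hσ ⟨J.cl_dom H.cell, H.inf⟩ e).choose_spec.ok _, (hk i c _ p e).1, (hk i c _ p e).2⟩
  refine ea_of (Λ.B_ok _ _) hG H.sol.toAdm z.cl.2
    (u := fun x => ‖(fld J c q y.s).C y.x x‖ ^ 2) (fun x hx => ?_)
    (int_fld (Λ.B_ok _ _) H.sol.toAdm tk) H.int (pow_le_pow_left₀ e0.le (min_le_left _ _) 2)
    ((pow_le_pow_left₀ e0.le (min_le_right _ _) 2).trans_eq (by norm_num)) fun D hD =>
      lb_fld z hT (Λ.B_ok _ _) H.sol.toAdm k1 tk (fun i => bas_tm (hb i)) (fun i => hρ i c _ p)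
        (fun i => one_pos.trans_le (b1 i)) hb' b6 hD
  have e := H.sol.C x
  rw [Cfg.eC, tau_pc hJ hπ hn hx, z.z x hx, sub_eq_zero] at e
  rw [← e]
  simp [Md.mu, Md.q, rk1, ← Pi.zero_def]

end Crest.Agent.X212.Eps37
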